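import Vale.Agent.P080.C1.Defs

/-!
B6a: linking of the windows at one point over finitely many scales, and the growth it gives.
-/

namespace Vale.Agent.P080.C1.Zoom

open Set
open scoped RealInnerProductSpace

variable {F : Type*} [NormedAddCommGroup F] [InnerProductSpace ℝ F]
variable {C : ℝ} {w : ℝ → F → ℝ} {t : ℝ} {y : F}

/-- The drift of the intercept from one scale to the next. -/
noncomputable def bStep (C : ℝ) : ℝ := 3 * C * (1 + 2 * C) + 9 * C ^ 2 / 2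

theorem bStep_nonneg (hC : 0 ≤ C) : 0 ≤ bStep C := by unfold bStep; positivity

theorem win_step (hC : 0 ≤ C) {r b b' : ℝ} {v v' : F} (hr : 0 < r)
    (h : IsWin C w t y r b v) (h' : IsWin C w t y (2 * r) b' v') :
    ‖v' - v‖ ≤ 3 * C ∧ |b' - b| ≤ bStep C := by
  have hv : ‖v' - v‖ ≤ 3 * C := by
    rcases eq_or_ne (v' - v) 0 with he | he
    · rw [he, norm_zero]; positivity
    obtain ⟨n, hn⟩ : ∃ n, n = ‖v' - v‖ := ⟨_, rfl⟩
    have hn0 : 0 < n := by rw [hn]; exact norm_pos_iff.2 he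
    have hz : ‖(r / n) • (v' - v)‖ = r := by
      rw [norm_smul, Real.norm_eq_abs, abs_of_pos (by positivity), ← hn]
      field_simp
    have h1 := h 0 ((r / n) • (v' - v)) (by simp [hr.le]) hz.le
    have h2 := h' 0 ((r / n) • (v' - v)) (by simp [hr.le]) (by rw [hz]; linarith)
    simp only [zero_smul, add_zero, mul_zero, sub_zero] at h1 h2
    have e : ⟪v', (r / n) • (v' - v)⟫ - ⟪v, (r / n) • (v' - v)⟫ = r * n := by
      rw [← inner_sub_left, real_inner_smul_right, real_inner_self_eq_norm_sq, ← hn]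
      field_simp
    rw [abs_le] at h1 h2
    have : r * n ≤ r * (3 * C) := by nlinarith
    rw [← hn]
    exact le_of_mul_le_mul_left this hr
  refine ⟨hv, ?_⟩
  obtain ⟨τ, hτ⟩ : ∃ τ, τ = r / (1 + 2 * C) := ⟨_, rfl⟩
  have hτ0 : 0 < τ := by rw [hτ]; positivity
  have hτr : τ * (1 + 2 * C) = r := by rw [hτ]; field_simp
  have hτle : τ ≤ r := by nlinarith
  have h1 := h τ 0 (by rw [abs_of_pos hτ0]; exact hτle) (by simp [hr.le])
  have hz : ‖τ • (v - v')‖ ≤ 2 * r := by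
    rw [norm_smul, Real.norm_eq_abs, abs_of_pos hτ0, norm_sub_rev]
    nlinarith
  have h2 := h' τ (τ • (v - v')) (by rw [abs_of_pos hτ0]; linarith) hz
  have e : y + τ • v' + τ • (v - v') = y + τ • v := by rw [smul_sub]; abel
  rw [e, real_inner_smul_right] at h2
  rw [inner_zero_right, sub_zero, add_zero] at h1
  have e2 : ‖v' - v‖ ^ 2 = ‖v'‖ ^ 2 - 2 * ⟪v', v⟫ + ‖v‖ ^ 2 := norm_sub_sq_real v' v
  have e3 : ⟪v', v - v'⟫ = ⟪v', v⟫ - ‖v'‖ ^ 2 := by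
    rw [inner_sub_right, real_inner_self_eq_norm_sq]
  rw [e3] at h2
  have hsq : ‖v' - v‖ ^ 2 ≤ 9 * C ^ 2 := by nlinarith [norm_nonneg (v' - v)]
  rw [abs_le] at h1 h2 ⊢
  have hb : bStep C * τ = 3 * C * r + 9 * C ^ 2 / 2 * τ := by
    unfold bStep; rw [← hτr]; ring
  constructor
  · refine le_of_mul_le_mul_right ?_ hτ0
    nlinarith
  · refine le_of_mul_le_mul_right ?_ hτ0
    nlinarith

theorem win_chain (hC : 0 ≤ C) {r : ℝ} (hr : 0 < r) {b : ℕ → ℝ} {v : ℕ → F} :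
    ∀ {k : ℕ}, (∀ i, i ≤ k → IsWin C w t y (2 ^ i * r) (b i) (v i)) →
      ‖v k - v 0‖ ≤ 3 * C * k ∧ |b k - b 0| ≤ bStep C * k := by
  intro k
  induction k with
  | zero => intro _; simp
  | succ k ih =>
    intro h
    obtain ⟨i1, i2⟩ := ih fun i hi => h i (hi.trans k.le_succ)
    have hs := h (k + 1) le_rfl
    rw [pow_succ, mul_comm ((2 : ℝ) ^ k) 2, mul_assoc] at hs
    obtain ⟨s1, s2⟩ := win_step hC (by positivity) (h k k.le_succ) hs
    push_cast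
    constructor
    · linarith [norm_sub_le_norm_sub_add_norm_sub (v (k + 1)) (v k) (v 0)]
    · linarith [abs_sub_le (b (k + 1)) (b k) (b 0)]

/-- The bound from the window at scale `2 ^ k * r`. -/
theorem chain_growth (hC : 0 ≤ C) {r : ℝ} (hr : 0 < r) {b : ℕ → ℝ} {v : ℕ → F} {k : ℕ}
    (h : ∀ i, i ≤ k → IsWin C w t y (2 ^ i * r) (b i) (v i)) {τ : ℝ} {z : F}
    (hq : (|τ| + ‖z‖) * (1 + 3 * C * k) ≤ 2 ^ k * r) :
    |w (t + τ) (y + τ • v 0 + z) - w t y - (b 0 + ‖v 0‖ ^ 2 / 2) * τ - ⟪v 0, z⟫| ≤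
      C * (2 ^ k * r) + (bStep C * k + 9 * C ^ 2 / 2 * (k : ℝ) ^ 2) * |τ| + 3 * C * k * ‖z‖ := by
  obtain ⟨hv, hb⟩ := win_chain hC hr h
  obtain ⟨z', hz'⟩ : ∃ z', z' = τ • (v 0 - v k) + z := ⟨_, rfl⟩
  have hk : (0 : ℝ) ≤ 3 * C * k := by positivity
  have hn : ‖z'‖ ≤ 2 ^ k * r := by
    rw [hz']
    refine (norm_add_le _ _).trans ?_
    rw [norm_smul, Real.norm_eq_abs, norm_sub_rev]
    nlinarith [abs_nonneg τ, norm_nonneg z, mul_le_mul_of_nonneg_left hv (abs_nonneg τ)]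
  have h1 := h k le_rfl τ z' (by nlinarith [abs_nonneg τ, norm_nonneg z]) hn
  have e : y + τ • v k + z' = y + τ • v 0 + z := by rw [hz', smul_sub]; abel
  rw [e] at h1
  have e2 : (b k + ‖v k‖ ^ 2 / 2) * τ + ⟪v k, z'⟫ - ((b 0 + ‖v 0‖ ^ 2 / 2) * τ + ⟪v 0, z⟫) =
      (b k - b 0 - ‖v k - v 0‖ ^ 2 / 2) * τ + ⟪v k - v 0, z⟫ := by
    rw [hz', inner_add_right, real_inner_smul_right, inner_sub_right, real_inner_self_eq_norm_sq,
      norm_sub_sq_real, inner_sub_left]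
    ring
  have h2 : |(b k - b 0 - ‖v k - v 0‖ ^ 2 / 2) * τ + ⟪v k - v 0, z⟫| ≤
      (bStep C * k + 9 * C ^ 2 / 2 * (k : ℝ) ^ 2) * |τ| + 3 * C * k * ‖z‖ := by
    refine (abs_add_le _ _).trans (add_le_add ?_ ?_)
    · rw [abs_mul]
      refine mul_le_mul_of_nonneg_right ?_ (abs_nonneg τ)
      have : ‖v k - v 0‖ ^ 2 ≤ (3 * C * k) ^ 2 := pow_le_pow_left₀ (norm_nonneg _) hv 2
      rw [abs_le] at hb ⊢
      constructor <;> nlinarith [sq_nonneg ‖v k - v 0‖]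
    · exact (abs_real_inner_le_norm _ _).trans (mul_le_mul_of_nonneg_right hv (norm_nonneg z))
  rw [← e2] at h2
  rw [abs_le] at h1 h2 ⊢
  constructor <;> linarith

/-- The constants of the growth bound. -/
noncomputable def scaleK (C : ℝ) : ℝ := (1 + 54 * C) ^ 2

/-- The growth constant. -/
noncomputable def growC (C : ℝ) : ℝ :=
  2 * C * scaleK C + (bStep C + 3 * C) * (6 * (1 + 54 * C) + 12) +
    9 * C ^ 2 / 2 * (6 * (1 + 54 * C) + 12) ^ 2

theorem growC_nonneg (hC : 0 ≤ C) : 0 ≤ growC C := by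
  have := bStep_nonneg hC
  unfold growC scaleK
  positivity

theorem exists_scale (hC : 0 ≤ C) {q : ℝ} (hq : 0 ≤ q) : ∃ k : ℕ,
    q * (1 + 3 * C * k) ≤ 2 ^ k ∧ (2 : ℝ) ^ k ≤ 2 * scaleK C * ((1 + q) * Real.sqrt (1 + q)) ∧
      (k : ℝ) ≤ (6 * (1 + 54 * C) + 12) * Real.sqrt (Real.sqrt (1 + q)) := by
  obtain ⟨s, hs⟩ : ∃ s, s = 1 + 54 * C := ⟨_, rfl⟩
  obtain ⟨x, hx⟩ : ∃ x, x = 1 + q := ⟨_, rfl⟩
  obtain ⟨p, hp⟩ : ∃ p, p = Real.sqrt (Real.sqrt x) := ⟨_, rfl⟩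
  have hx1 : 1 ≤ x := by linarith
  have hx0 : 0 < x := by linarith
  have hsx : 1 ≤ Real.sqrt x := Real.one_le_sqrt.2 hx1
  have hp1 : 1 ≤ p := hp ▸ Real.one_le_sqrt.2 hsx
  have hp2 : p ^ 2 = Real.sqrt x := hp ▸ Real.sq_sqrt (Real.sqrt_nonneg x)
  have hs1 : 1 ≤ s := by linarith
  have hY : 1 ≤ s ^ 2 * (x * Real.sqrt x) :=
    one_le_mul_of_one_le_of_one_le (one_le_pow₀ hs1) (one_le_mul_of_one_le_of_one_le hx1 hsx)
  obtain ⟨n, hn1, hn2⟩ := exists_nat_pow_near hY one_lt_two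
  have hk2 : (2 : ℝ) ^ (n + 1) ≤ 2 * s ^ 2 * (x * Real.sqrt x) := by
    rw [pow_succ]; linarith
  have hlog : ((n + 1 : ℕ) : ℝ) * Real.log 2 ≤ 3 * s + 6 * p := by
    have h1 := Real.log_le_log (by positivity) hk2
    rw [Real.log_pow, Real.log_mul (by positivity) (by positivity),
      Real.log_mul (by positivity) (by positivity), Real.log_mul (by positivity) (by positivity),
      Real.log_pow, Real.log_sqrt hx0.le] at h1
    have h2 : Real.log x = 4 * Real.log p := by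
      rw [hp, Real.log_sqrt (Real.sqrt_nonneg x), Real.log_sqrt hx0.le]; ring
    have h3 := Real.log_le_sub_one_of_pos (lt_of_lt_of_le one_pos hp1)
    have h4 := Real.log_le_sub_one_of_pos (lt_of_lt_of_le one_pos hs1)
    have h5 := Real.log_le_sub_one_of_pos (zero_lt_two (α := ℝ))
    push_cast at h1 ⊢
    linarith
  have hk3 : ((n + 1 : ℕ) : ℝ) ≤ (6 * s + 12) * p := by
    have := Real.log_two_gt_d9
    have h0 : (0 : ℝ) ≤ ((n + 1 : ℕ) : ℝ) := by positivity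
    nlinarith
  refine ⟨n + 1, ?_, ?_, ?_⟩
  · have h1 : 1 + 3 * C * ((n + 1 : ℕ) : ℝ) ≤ s ^ 2 * p ^ 2 := by
      have h2 : 1 + 3 * C * ((6 * s + 12) * p) ≤ s ^ 2 * p := by
        have : 1 + 3 * C * (6 * s + 12) ≤ s ^ 2 := by rw [hs]; nlinarith
        nlinarith
      have h3 : s ^ 2 * p ≤ s ^ 2 * p ^ 2 := by gcongr; exact le_self_pow₀ hp1 two_ne_zero
      nlinarith [mul_le_mul_of_nonneg_left hk3 (by positivity : (0 : ℝ) ≤ 3 * C)]
    calc q * (1 + 3 * C * ((n + 1 : ℕ) : ℝ)) ≤ x * (s ^ 2 * p ^ 2) :=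
          mul_le_mul (by linarith) h1 (by positivity) hx0.le
      _ = s ^ 2 * (x * Real.sqrt x) := by rw [hp2]; ring
      _ ≤ 2 ^ (n + 1) := hn2.le
  · rw [scaleK, ← hs, ← hx]; exact hk2
  · rw [← hs, ← hx, ← hp]; exact hk3

/-- Growth from one window, given windows at larger scales up to `top`. -/
theorem growth_upto (hC : 0 ≤ C) {r top b : ℝ} {v : F} (hr : 0 < r) (hb : IsWin C w t y r b v)
    (hW : ∀ ρ, r ≤ ρ → ρ ≤ top → ∃ (b : ℝ) (v : F), IsWin C w t y ρ b v) {τ : ℝ} {z : F} {q : ℝ}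
    (hq : |τ| + ‖z‖ ≤ q * r) (hq0 : 0 ≤ q)
    (htop : 2 * scaleK C * ((1 + q) * Real.sqrt (1 + q)) * r ≤ top) :
    |w (t + τ) (y + τ • v + z) - w t y - (b + ‖v‖ ^ 2 / 2) * τ - ⟪v, z⟫| ≤
      growC C * r * ((1 + q) * Real.sqrt (1 + q)) := by
  obtain ⟨k, hk1, hk2, hk3⟩ := exists_scale hC hq0
  have hex : ∀ i : ℕ, ∃ (b' : ℝ) (v' : F), (i = 0 → b' = b ∧ v' = v) ∧
      (i ≤ k → IsWin C w t y (2 ^ i * r) b' v') := by
    intro i
    rcases Nat.eq_zero_or_pos i with rfl | hi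
    · exact ⟨b, v, fun _ => ⟨rfl, rfl⟩, fun _ => by simpa using hb⟩
    by_cases hik : i ≤ k
    · obtain ⟨b', v', h⟩ := hW (2 ^ i * r) (le_mul_of_one_le_left hr.le (one_le_pow₀ one_le_two))
        ((mul_le_mul_of_nonneg_right ((pow_le_pow_right₀ one_le_two hik).trans hk2) hr.le).trans
          htop)
      exact ⟨b', v', fun h0 => absurd h0 hi.ne', fun _ => h⟩
    · exact ⟨b, v, fun h0 => absurd h0 hi.ne', fun h => absurd h hik⟩
  choose bs vs h0 hw using hex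
  obtain ⟨e1, e2⟩ := h0 0 rfl
  have hk0 : (0 : ℝ) ≤ 1 + 3 * C * k := by positivity
  have := chain_growth hC hr hw (τ := τ) (z := z)
    ((mul_le_mul_of_nonneg_right hq hk0).trans (by nlinarith))
  rw [e1, e2] at this
  refine this.trans ?_
  obtain ⟨X, hX⟩ : ∃ X, X = (1 + q) * Real.sqrt (1 + q) := ⟨_, rfl⟩
  obtain ⟨p, hp⟩ : ∃ p, p = Real.sqrt (Real.sqrt (1 + q)) := ⟨_, rfl⟩
  obtain ⟨a, ha⟩ : ∃ a, a = 6 * (1 + 54 * C) + 12 := ⟨_, rfl⟩
  rw [← hX] at hk2 ⊢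
  rw [← hp, ← ha] at hk3
  have hp2 : p ^ 2 = Real.sqrt (1 + q) := hp ▸ Real.sq_sqrt (Real.sqrt_nonneg _)
  have hp1 : 1 ≤ p := hp ▸ Real.one_le_sqrt.2 (Real.one_le_sqrt.2 (by linarith))
  have ha0 : 0 ≤ a := by rw [ha]; positivity
  have hB := bStep_nonneg hC
  have hkp : (k : ℝ) * q ≤ a * X := by
    calc (k : ℝ) * q ≤ (a * p ^ 2) * (1 + q) := by
          refine mul_le_mul (hk3.trans ?_) (by linarith) hq0 (by positivity)
          exact mul_le_mul_of_nonneg_left (by nlinarith) ha0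
      _ = a * X := by rw [hX, hp2]; ring
  have hkp2 : (k : ℝ) ^ 2 * q ≤ a ^ 2 * X := by
    calc (k : ℝ) ^ 2 * q ≤ (a * p) ^ 2 * (1 + q) :=
          mul_le_mul (pow_le_pow_left₀ (Nat.cast_nonneg k) hk3 2) (by linarith) hq0 (by positivity)
      _ = a ^ 2 * X := by rw [hX, mul_pow, hp2]; ring
  have ht : |τ| ≤ q * r := by linarith [norm_nonneg z]
  have hz : ‖z‖ ≤ q * r := by linarith [abs_nonneg τ]
  calc C * (2 ^ k * r) + (bStep C * k + 9 * C ^ 2 / 2 * (k : ℝ) ^ 2) * |τ| + 3 * C * k * ‖z‖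
      ≤ C * (2 * scaleK C * X * r) + (bStep C * k + 9 * C ^ 2 / 2 * (k : ℝ) ^ 2) * (q * r) +
          3 * C * k * (q * r) := by gcongr
    _ = r * (2 * C * scaleK C * X + (bStep C + 3 * C) * ((k : ℝ) * q) +
          9 * C ^ 2 / 2 * ((k : ℝ) ^ 2 * q)) := by ring
    _ ≤ r * (2 * C * scaleK C * X + (bStep C + 3 * C) * (a * X) +
          9 * C ^ 2 / 2 * (a ^ 2 * X)) := by gcongr
    _ = growC C * r * X := by rw [growC, ← ha]; ring

end Vale.Agent.P080.C1.Zoom
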