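import Vale.Agent.P080.C1.Defs

/-!
B6a: a sequence of functions with eventual windows, monotone slopes, comparison and a growth
bound `G q^(3/2) + e n q^2`, `e n → 0`, has a subsequence converging locally uniformly to a profile.
-/

namespace Vale.Agent.P080.C1.Zoom

open Set Filter Topology Metric
open scoped RealInnerProductSpace

variable {F : Type*} [NormedAddCommGroup F] [InnerProductSpace ℝ F] [FiniteDimensional ℝ F]

/-- The box inequality of `Barrier` at one box. -/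
def BoxCmp (w : ℝ → F → ℝ) (t : ℝ) (y k : F) (T R L M c K : ℝ) : Prop :=
  (∀ (σ : ℝ) (z : F), 0 ≤ σ → σ ≤ T → ‖z‖ ≤ R → σ = 0 ∨ σ = T ∨ ‖z‖ = R →
    back w t y k σ z ≤ c + K * σ - L * σ ^ 2 + M * ‖z‖ ^ 2) →
  ∀ (σ : ℝ) (z : F), 0 ≤ σ → σ ≤ T → ‖z‖ ≤ R →
    back w t y k σ z ≤ c + K * σ - L * σ ^ 2 + M * ‖z‖ ^ 2

/-- The size of a point. -/
def size (t : ℝ) (y : F) : ℝ := 1 + |t| + ‖y‖

/-- A sequence that eventually has the three properties of a profile. -/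
structure Approx (C G : ℝ) (W : ℕ → ℝ → F → ℝ) : Prop where
  grow : ∀ S e : ℝ, 0 < e → ∀ᶠ n in atTop, ∀ t y, |t| ≤ S →
    |W n t y| ≤ G * (size t y * Real.sqrt (size t y)) + e * size t y ^ 2
  win : ∀ t y r, 0 < r → ∀ᶠ n in atTop, ∃ (b : ℝ) (v : F), IsWin C (W n) t y r b v
  mono : ∀ t y h₁ h₂, 0 < h₁ → h₁ ≤ h₂ →
    ∀ᶠ n in atTop, Sp (W n) h₁ t y ≤ Sp (W n) h₂ t y
  mono_mir : ∀ t y h₁ h₂, 0 < h₁ → h₁ ≤ h₂ →
    ∀ᶠ n in atTop, Sp (mir (W n)) h₁ t y ≤ Sp (mir (W n)) h₂ t y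
  box : ∀ (t : ℝ) (y k : F) (T R L M c K : ℝ), 0 < T → 0 < R → 0 ≤ M → 4 * M ^ 3 * R ^ 2 < L →
    ∀ᶠ n in atTop, BoxCmp (W n) t y k T R L M c K
  box_mir : ∀ (t : ℝ) (y k : F) (T R L M c K : ℝ), 0 < T → 0 < R → 0 ≤ M → 4 * M ^ 3 * R ^ 2 < L →
    ∀ᶠ n in atTop, BoxCmp (mir (W n)) t y k T R L M c K

variable {C G : ℝ} {W : ℕ → ℝ → F → ℝ}

omit [NormedAddCommGroup F] [InnerProductSpace ℝ F] [FiniteDimensional ℝ F] in
theorem mir_mir (w : ℝ → F → ℝ) : mir (mir w) = w := by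
  funext t y; simp [mir]

omit [FiniteDimensional ℝ F] in
theorem isWin_mir {w : ℝ → F → ℝ} {t r b : ℝ} {y v : F} (h : IsWin C w (-t) y r b v) :
    IsWin C (mir w) t y r b (-v) := by
  intro τ z hτ hz
  have h1 := h (-τ) z (by rwa [abs_neg]) hz
  have e : y + τ • -v + z = y + (-τ) • v + z := by rw [smul_neg, neg_smul]
  have e' : -(t + τ) = -t + -τ := by ring
  simp only [mir, norm_neg, inner_neg_left, e, e']
  rw [← abs_neg]
  convert h1 using 2
  ring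

omit [InnerProductSpace ℝ F] [FiniteDimensional ℝ F] in
theorem size_neg (t : ℝ) (y : F) : size (-t) y = size t y := by simp [size]

omit [FiniteDimensional ℝ F] in
theorem Approx.mir (h : Approx C G W) : Approx C G (fun n => C1.mir (W n)) where
  grow S e he := (h.grow S e he).mono fun n hn t y ht => by
    simpa [C1.mir, size_neg] using hn (-t) y (by rwa [abs_neg])
  win t y r hr := (h.win (-t) y r hr).mono fun n ⟨b, v, hv⟩ => ⟨b, -v, isWin_mir hv⟩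
  mono := h.mono_mir
  mono_mir t y a b ha hab := by simpa only [mir_mir] using h.mono t y a b ha hab
  box := h.box_mir
  box_mir t y k T R L M c K h1 h2 h3 h4 := by
    simpa only [mir_mir] using h.box t y k T R L M c K h1 h2 h3 h4

omit [FiniteDimensional ℝ F] in
theorem Approx.comp (h : Approx C G W) {φ : ℕ → ℕ} (hφ : Tendsto φ atTop atTop) :
    Approx C G (fun n => W (φ n)) where
  grow S e he := hφ.eventually (h.grow S e he)
  win t y r hr := hφ.eventually (h.win t y r hr)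
  mono t y a b ha hab := hφ.eventually (h.mono t y a b ha hab)
  mono_mir t y a b ha hab := hφ.eventually (h.mono_mir t y a b ha hab)
  box t y k T R L M c K h1 h2 h3 h4 := hφ.eventually (h.box t y k T R L M c K h1 h2 h3 h4)
  box_mir t y k T R L M c K h1 h2 h3 h4 :=
    hφ.eventually (h.box_mir t y k T R L M c K h1 h2 h3 h4)

omit [FiniteDimensional ℝ F] in
theorem Approx.bound (h : Approx C G W) (S : ℝ) :
    ∃ B, 0 ≤ B ∧ ∀ᶠ n in atTop, ∀ t y, |t| ≤ S → ‖y‖ ≤ S → |W n t y| ≤ B := by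
  obtain ⟨A, hA⟩ : ∃ A, A = 1 + |S| + |S| := ⟨_, rfl⟩
  have hA0 : 0 ≤ A := by rw [hA]; positivity
  refine ⟨|G| * (A * Real.sqrt A) + A ^ 2, by positivity,
    (h.grow S 1 one_pos).mono fun n hn t y ht hy => ?_⟩
  refine (hn t y ht).trans ?_
  have hs : size t y ≤ A := by rw [hA, size]; linarith [le_abs_self S]
  have hs0 : 0 ≤ size t y := by unfold size; positivity
  have h1 : G * (size t y * Real.sqrt (size t y)) ≤ |G| * (A * Real.sqrt A) :=
    (mul_le_mul_of_nonneg_right (le_abs_self G) (by positivity)).trans (by gcongr)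
  have h2 : size t y ^ 2 ≤ A ^ 2 := by gcongr
  linarith

omit [FiniteDimensional ℝ F] in
/-- The slope pair of a window is bounded by the values on the window. -/
theorem win_slope_bound {w : ℝ → F → ℝ} {t r b B S : ℝ} {y v : F} (hC : 0 ≤ C) (hr : 0 < r)
    (hw : IsWin C w t y r b v) (hB : ∀ s x, |s| ≤ S → ‖x‖ ≤ S → |w s x| ≤ B)
    (ht : |t| + r ≤ S) (hy : ‖y‖ + r ≤ S) :
    ‖v‖ ≤ (2 * B + C * r) / r ∧
      |b + ‖v‖ ^ 2 / 2| ≤ (1 + (2 * B + C * r) / r) * ((2 * B + C * r) / r) := by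
  have h0 : |w t y| ≤ B := hB t y (by linarith) (by linarith)
  have hB0 : 0 ≤ B := (abs_nonneg _).trans h0
  obtain ⟨V, hV⟩ : ∃ V, V = (2 * B + C * r) / r := ⟨_, rfl⟩
  have hV0 : 0 ≤ V := by rw [hV]; positivity
  have hVr : V * r = 2 * B + C * r := by rw [hV]; field_simp
  rw [← hV]
  have hv : ‖v‖ ≤ V := by
    rcases eq_or_ne v 0 with he | he
    · rw [he, norm_zero]; exact hV0
    have hn : 0 < ‖v‖ := norm_pos_iff.2 he
    obtain ⟨z, hz⟩ : ∃ z, z = (r / ‖v‖) • v := ⟨_, rfl⟩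
    have hzn : ‖z‖ = r := by
      rw [hz, norm_smul, Real.norm_eq_abs, abs_of_pos (by positivity)]; field_simp
    have h1 := hw 0 z (by simp [hr.le]) hzn.le
    simp only [add_zero, zero_smul, mul_zero, sub_zero] at h1
    have h2 : |w t (y + z)| ≤ B :=
      hB t (y + z) (by linarith) ((norm_add_le _ _).trans (by rw [hzn]; exact hy))
    have e : ⟪v, z⟫ = ‖v‖ * r := by
      rw [hz, real_inner_smul_right, real_inner_self_eq_norm_sq]; field_simp
    rw [e, abs_le] at h1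
    rw [abs_le] at h0 h2
    refine le_of_mul_le_mul_right ?_ hr
    linarith
  refine ⟨hv, ?_⟩
  obtain ⟨τ, hτ⟩ : ∃ τ, τ = r / (1 + V) := ⟨_, rfl⟩
  have hτ0 : 0 < τ := by rw [hτ]; positivity
  have hτr : τ * (1 + V) = r := by rw [hτ]; field_simp
  have hτv : τ * ‖v‖ ≤ r := by nlinarith
  have h1 := hw τ 0 (by rw [abs_of_pos hτ0]; nlinarith) (by simp [hr.le])
  have h2 : |w (t + τ) (y + τ • v + 0)| ≤ B := by
    refine hB _ _ ((abs_add_le _ _).trans (by rw [abs_of_pos hτ0]; nlinarith)) ?_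
    rw [add_zero]
    refine (norm_add_le _ _).trans ?_
    rw [norm_smul, Real.norm_eq_abs, abs_of_pos hτ0]
    linarith
  rw [inner_zero_right, sub_zero] at h1
  rw [abs_le] at h0 h1 h2 ⊢
  have e : (1 + V) * V * τ = V * r := by rw [← hτr]; ring
  constructor
  · refine le_of_mul_le_mul_right ?_ hτ0; linarith
  · refine le_of_mul_le_mul_right ?_ hτ0; linarith

omit [FiniteDimensional ℝ F] in
/-- Equicontinuity at every point. -/
theorem Approx.equicont (h : Approx C G W) (hC : 0 ≤ C) (X : ℝ × F) {ε : ℝ} (hε : 0 < ε) :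
    ∃ δ, 0 < δ ∧ ∀ᶠ n in atTop, ∀ Y : ℝ × F, ‖Y - X‖ ≤ δ →
      |W n Y.1 Y.2 - W n X.1 X.2| ≤ ε := by
  obtain ⟨t, y⟩ := X
  obtain ⟨r, hr⟩ : ∃ r, r = min 1 (ε / (2 * (C + 1))) := ⟨_, rfl⟩
  have hr0 : 0 < r := by rw [hr]; positivity
  have hr1 : r ≤ 1 := hr ▸ min_le_left _ _
  have hrC : C * r ≤ ε / 2 := by
    have h1 : r ≤ ε / (2 * (C + 1)) := hr ▸ min_le_right _ _
    rw [le_div_iff₀ (by positivity)] at h1
    linarith
  obtain ⟨B, hB0, hB⟩ := h.bound (|t| + ‖y‖ + 1)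
  obtain ⟨V, hV⟩ : ∃ V, V = (2 * B + C * r) / r := ⟨_, rfl⟩
  have hV0 : 0 ≤ V := by rw [hV]; positivity
  refine ⟨min (r / (1 + V)) (ε / (2 * ((1 + V) * V + V * (1 + V) + 1))), by positivity, ?_⟩
  filter_upwards [hB, h.win t y r hr0] with n hn hw Y hY
  obtain ⟨b, v, hv⟩ := hw
  obtain ⟨hv1, hv2⟩ := win_slope_bound hC hr0 hv hn (by linarith [norm_nonneg y])
    (by linarith [abs_nonneg t])
  rw [← hV] at hv1 hv2
  obtain ⟨δ, hδ⟩ : ∃ δ, δ = ‖Y - (t, y)‖ := ⟨_, rfl⟩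
  rw [← hδ] at hY
  obtain ⟨τ, hτ⟩ : ∃ τ, τ = Y.1 - t := ⟨_, rfl⟩
  obtain ⟨z, hz⟩ : ∃ z, z = Y.2 - y - τ • v := ⟨_, rfl⟩
  have hτn : |τ| ≤ δ := by
    rw [hτ, hδ, Prod.norm_def]; exact le_max_left _ _
  have hzn : ‖z‖ ≤ δ * (1 + V) := by
    rw [hz]
    refine (norm_sub_le _ _).trans ?_
    rw [norm_smul, Real.norm_eq_abs, mul_add, mul_one]
    refine add_le_add ?_ (mul_le_mul hτn hv1 (norm_nonneg v) ((abs_nonneg τ).trans hτn))
    rw [hδ, Prod.norm_def]; exact le_max_right _ _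
  have hδ1 : δ * (1 + V) ≤ r := by
    have := hY.trans (min_le_left _ _)
    rwa [le_div_iff₀ (by positivity)] at this
  have hδ2 : δ * ((1 + V) * V + V * (1 + V) + 1) ≤ ε / 2 := by
    have h1 := hY.trans (min_le_right _ _)
    rw [le_div_iff₀ (by positivity)] at h1
    linarith
  have hδ0 : 0 ≤ δ := hδ ▸ norm_nonneg _
  have h1 := hv τ z (by nlinarith) (hzn.trans hδ1)
  have e1 : t + τ = Y.1 := by rw [hτ]; ring
  have e2 : y + τ • v + z = Y.2 := by rw [hz]; abel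
  rw [e1, e2] at h1
  have h2 : |(b + ‖v‖ ^ 2 / 2) * τ| ≤ (1 + V) * V * δ := by
    rw [abs_mul]; exact mul_le_mul hv2 hτn (abs_nonneg τ) (by positivity)
  have h3 : |⟪v, z⟫| ≤ V * (δ * (1 + V)) :=
    (abs_real_inner_le_norm v z).trans (mul_le_mul hv1 hzn (norm_nonneg z) hV0)
  rw [abs_le] at h1 h2 h3 ⊢
  constructor <;> linarith

/-- A subsequence converging at a dense sequence of points. -/
theorem Approx.exists_subseq (h : Approx C G W) :
    ∃ φ : ℕ → ℕ, StrictMono φ ∧ ∀ i, ∃ l, Tendsto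
      (fun n => W (φ n) (TopologicalSpace.denseSeq (ℝ × F) i).1
        (TopologicalSpace.denseSeq (ℝ × F) i).2) atTop (𝓝 l) := by
  choose B hB0 hB using fun i => h.bound
    (‖TopologicalSpace.denseSeq (ℝ × F) i‖)
  obtain ⟨f, hf⟩ : ∃ f : ℕ → ℕ → ℝ, f = fun n i => max (-B i) (min (B i)
      (W n (TopologicalSpace.denseSeq (ℝ × F) i).1 (TopologicalSpace.denseSeq (ℝ × F) i).2)) :=
    ⟨_, rfl⟩
  obtain ⟨a, -, φ, hφ, ha⟩ := (isCompact_univ_pi fun i : ℕ =>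
      (isCompact_Icc : IsCompact (Icc (-B i) (B i)))).tendsto_subseq (x := f)
    (fun n i _ => by
      rw [hf]
      exact ⟨le_max_left _ _, max_le (by linarith [hB0 i]) (min_le_left _ _)⟩)
  refine ⟨φ, hφ, fun i => ⟨a i, (tendsto_pi_nhds.1 ha i).congr' ?_⟩⟩
  filter_upwards [hφ.tendsto_atTop.eventually (hB i)] with n hn
  have h2 := abs_le.1 (hn _ _ ((Real.norm_eq_abs _).symm.trans_le
    (norm_fst_le (TopologicalSpace.denseSeq (ℝ × F) i))) (norm_snd_le _))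
  simp only [hf, Function.comp]
  rw [min_eq_right h2.2, max_eq_right h2.1]

/-- Convergence at a dense sequence gives a limit everywhere. -/
theorem Approx.exists_limit (h : Approx C G W) (hC : 0 ≤ C)
    (hd : ∀ i, ∃ l, Tendsto (fun n => W n (TopologicalSpace.denseSeq (ℝ × F) i).1
      (TopologicalSpace.denseSeq (ℝ × F) i).2) atTop (𝓝 l)) :
    ∃ w : ℝ → F → ℝ, ∀ t y, Tendsto (fun n => W n t y) atTop (𝓝 (w t y)) := by
  suffices hh : ∀ t y, ∃ l, Tendsto (fun n => W n t y) atTop (𝓝 l) by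
    choose w hw using hh
    exact ⟨w, hw⟩
  intro t y
  refine cauchySeq_tendsto_of_complete (Metric.cauchySeq_iff'.2 fun ε hε => ?_)
  obtain ⟨δ, hδ, hev⟩ := h.equicont hC (t, y) (show 0 < ε / 8 by positivity)
  obtain ⟨i, hi⟩ := (TopologicalSpace.denseRange_denseSeq (ℝ × F)).exists_dist_lt (t, y) hδ
  obtain ⟨l, hl⟩ := hd i
  obtain ⟨N, hN⟩ := eventually_atTop.1
    ((Metric.tendsto_nhds.1 hl (ε / 8) (by positivity)).and hev)
  refine ⟨N, fun n hn => ?_⟩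
  have hY : ‖TopologicalSpace.denseSeq (ℝ × F) i - (t, y)‖ ≤ δ := by
    rw [← dist_eq_norm, dist_comm]; exact hi.le
  have a1 := (hN n hn).2 _ hY
  have a2 := (hN N le_rfl).2 _ hY
  have b1 := (hN n hn).1
  have b2 := (hN N le_rfl).1
  rw [Real.dist_eq] at b1 b2 ⊢
  rw [abs_lt] at b1 b2 ⊢
  rw [abs_le] at a1 a2
  constructor <;> linarith

variable {w : ℝ → F → ℝ}

omit [FiniteDimensional ℝ F] in
theorem Approx.limit_modulus (h : Approx C G W) (hC : 0 ≤ C)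
    (hw : ∀ t y, Tendsto (fun n => W n t y) atTop (𝓝 (w t y))) (X : ℝ × F) {ε : ℝ} (hε : 0 < ε) :
    ∃ δ, 0 < δ ∧ (∀ᶠ n in atTop, ∀ Y : ℝ × F, ‖Y - X‖ ≤ δ →
      |W n Y.1 Y.2 - W n X.1 X.2| ≤ ε) ∧
      ∀ Y : ℝ × F, ‖Y - X‖ ≤ δ → |w Y.1 Y.2 - w X.1 X.2| ≤ ε := by
  obtain ⟨δ, hδ, hev⟩ := h.equicont hC X hε
  exact ⟨δ, hδ, hev, fun Y hY =>
    le_of_tendsto (((hw _ _).sub (hw _ _)).abs) (hev.mono fun n hn => hn Y hY)⟩

omit [FiniteDimensional ℝ F] in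
theorem Approx.tendsto_joint (h : Approx C G W) (hC : 0 ≤ C)
    (hw : ∀ t y, Tendsto (fun n => W n t y) atTop (𝓝 (w t y))) {tn : ℕ → ℝ} {yn : ℕ → F} {t : ℝ}
    {y : F} (ht : Tendsto tn atTop (𝓝 t)) (hy : Tendsto yn atTop (𝓝 y)) :
    Tendsto (fun n => W n (tn n) (yn n)) atTop (𝓝 (w t y)) := by
  refine Metric.tendsto_nhds.2 fun ε hε => ?_
  obtain ⟨δ, hδ, hev, -⟩ := h.limit_modulus hC hw (t, y) (show 0 < ε / 2 by positivity)
  filter_upwards [hev, Metric.tendsto_nhds.1 (ht.prodMk_nhds hy) δ hδ,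
    Metric.tendsto_nhds.1 (hw t y) (ε / 2) (by positivity)] with n hn hX hp
  have h1 := hn (tn n, yn n) (by rw [← dist_eq_norm]; exact hX.le)
  rw [Real.dist_eq] at hp ⊢
  rw [abs_lt] at hp ⊢
  rw [abs_le] at h1
  constructor <;> linarith

omit [FiniteDimensional ℝ F] in
theorem Approx.uniform (h : Approx C G W) (hC : 0 ≤ C)
    (hw : ∀ t y, Tendsto (fun n => W n t y) atTop (𝓝 (w t y))) {K : Set (ℝ × F)}
    (hK : IsCompact K) {ε : ℝ} (hε : 0 < ε) :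
    ∀ᶠ n in atTop, ∀ X ∈ K, |W n X.1 X.2 - w X.1 X.2| ≤ ε := by
  choose δ hδ hev hmod using fun X => h.limit_modulus hC hw X (show 0 < ε / 3 by positivity)
  obtain ⟨s, -, hs⟩ := hK.elim_nhds_subcover (fun X => closedBall X (δ X))
    fun X _ => closedBall_mem_nhds X (hδ X)
  have hall : ∀ᶠ n in atTop, ∀ X ∈ s,
      (∀ Y : ℝ × F, ‖Y - X‖ ≤ δ X → |W n Y.1 Y.2 - W n X.1 X.2| ≤ ε / 3) ∧
        dist (W n X.1 X.2) (w X.1 X.2) < ε / 3 :=
    (eventually_all_finset s).2 fun X _ =>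
      (hev X).and (Metric.tendsto_nhds.1 (hw X.1 X.2) _ (by positivity))
  filter_upwards [hall] with n hn X hX
  obtain ⟨Y, hY, hXY⟩ := mem_iUnion₂.1 (hs hX)
  rw [mem_closedBall, dist_eq_norm] at hXY
  obtain ⟨h1, h2⟩ := hn Y hY
  have h1' := h1 X hXY
  have h3 := hmod Y X hXY
  rw [Real.dist_eq, abs_lt] at h2
  rw [abs_le] at h1' h3 ⊢
  constructor <;> linarith

omit [FiniteDimensional ℝ F] in
/-- The Hopf-Lax competitors are coercive, uniformly in `n`. -/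
theorem Approx.coercive (h : Approx C G W) {s : ℝ} (hs : 0 < s) (t : ℝ) (y : F) :
    ∃ K, ∀ᶠ n in atTop, ∀ z,
      W n (t + s) (y + z) - ‖z‖ ^ 2 / (2 * s) ≤ K - ‖z‖ ^ 2 / (8 * s) := by
  obtain ⟨η, hη⟩ : ∃ η, η = 1 / (32 * s * (|G| + 1)) := ⟨_, rfl⟩
  have hη0 : 0 < η := by rw [hη]; positivity
  have hGη : |G| * η ≤ 1 / (32 * s) := by
    rw [hη, mul_one_div, div_le_div_iff₀ (by positivity) (by positivity)]
    nlinarith [abs_nonneg G]
  obtain ⟨A, hA⟩ : ∃ A, A = 1 + |t + s| + ‖y‖ := ⟨_, rfl⟩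
  obtain ⟨P, hP⟩ : ∃ P, P = |G| / (4 * η) := ⟨_, rfl⟩
  have hP0 : 0 ≤ P := by rw [hP]; positivity
  refine ⟨A ^ 2 / (8 * s) + P * A + 2 * s * P ^ 2,
    (h.grow |t + s| (1 / (32 * s)) (by positivity)).mono fun n hn z => ?_⟩
  have h1 := (abs_le.1 (hn (t + s) (y + z) le_rfl)).2
  obtain ⟨q, hq⟩ : ∃ q, q = size (t + s) (y + z) := ⟨_, rfl⟩
  rw [← hq] at h1
  have hq0 : 0 ≤ q := by rw [hq, size]; positivity
  have hqA : q ≤ A + ‖z‖ := by rw [hq, hA, size]; linarith [norm_add_le y z]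
  have hsq : Real.sqrt q ≤ η * q + 1 / (4 * η) := by
    have e : η * q + 1 / (4 * η) - Real.sqrt q = η * (Real.sqrt q - 1 / (2 * η)) ^ 2 := by
      rw [sub_sq, Real.sq_sqrt hq0]; field_simp; ring
    have : 0 ≤ η * (Real.sqrt q - 1 / (2 * η)) ^ 2 := by positivity
    linarith
  have h2 : G * (q * Real.sqrt q) ≤ 1 / (32 * s) * q ^ 2 + P * q := by
    calc G * (q * Real.sqrt q) ≤ |G| * (q * (η * q + 1 / (4 * η))) :=
          mul_le_mul (le_abs_self G) (by gcongr) (by positivity) (abs_nonneg G)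
      _ = |G| * η * q ^ 2 + P * q := by rw [hP]; ring
      _ ≤ _ := by gcongr
  have hq2 : q ^ 2 ≤ 2 * A ^ 2 + 2 * ‖z‖ ^ 2 := by nlinarith [sq_nonneg (A - ‖z‖)]
  have h3 : 1 / (16 * s) * q ^ 2 ≤ A ^ 2 / (8 * s) + ‖z‖ ^ 2 / (8 * s) := by
    calc 1 / (16 * s) * q ^ 2 ≤ 1 / (16 * s) * (2 * A ^ 2 + 2 * ‖z‖ ^ 2) := by gcongr
      _ = _ := by field_simp; ring
  have h4 : P * ‖z‖ ≤ ‖z‖ ^ 2 / (8 * s) + 2 * s * P ^ 2 := by
    have e : ‖z‖ ^ 2 / (8 * s) + 2 * s * P ^ 2 - P * ‖z‖ = (‖z‖ - 4 * s * P) ^ 2 / (8 * s) := by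
      field_simp; ring
    have : 0 ≤ (‖z‖ - 4 * s * P) ^ 2 / (8 * s) := by positivity
    linarith
  have e5 : ‖z‖ ^ 2 / (2 * s) = 4 * (‖z‖ ^ 2 / (8 * s)) := by field_simp; ring
  have e6 : 1 / (32 * s) * q ^ 2 + 1 / (32 * s) * q ^ 2 = 1 / (16 * s) * q ^ 2 := by
    field_simp; ring
  nlinarith [mul_le_mul_of_nonneg_left hqA hP0, show 0 ≤ ‖z‖ ^ 2 / (8 * s) by positivity]

/-- The Hopf-Lax values converge. -/
theorem Approx.hlP_tendsto (h : Approx C G W) (hC : 0 ≤ C)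
    (hw : ∀ t y, Tendsto (fun n => W n t y) atTop (𝓝 (w t y))) {s : ℝ} (hs : 0 < s) (t : ℝ)
    (y : F) : Tendsto (fun n => hlP (W n) s t y) atTop (𝓝 (hlP w s t y)) := by
  obtain ⟨K, hK⟩ := h.coercive hs t y
  have hb : ∀ z, w (t + s) (y + z) - ‖z‖ ^ 2 / (2 * s) ≤ K - ‖z‖ ^ 2 / (8 * s) := fun z =>
    le_of_tendsto ((hw _ _).sub_const _) (hK.mono fun n hn => hn z)
  have hbd : ∀ f : F → ℝ, (∀ z, f z ≤ K - ‖z‖ ^ 2 / (8 * s)) → BddAbove (range f) := fun f hf =>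
    ⟨K, by
      rintro _ ⟨z, rfl⟩
      have : 0 ≤ ‖z‖ ^ 2 / (8 * s) := by positivity
      linarith [hf z]⟩
  refine Metric.tendsto_nhds.2 fun ε hε => ?_
  obtain ⟨A, hA⟩ : ∃ A, A = hlP w s t y := ⟨_, rfl⟩
  rw [← hA]
  obtain ⟨_, ⟨z0, rfl⟩, hz0⟩ := exists_lt_of_lt_csSup (range_nonempty _)
    (show A - ε / 3 < hlP w s t y by rw [← hA]; linarith)
  obtain ⟨R, hR⟩ : ∃ R, R = 1 + |8 * s * (K - A + 1)| := ⟨_, rfl⟩
  have hcomp : IsCompact (({t + s} : Set ℝ) ×ˢ closedBall y R) :=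
    isCompact_singleton.prod (isCompact_closedBall _ _)
  filter_upwards [hK, h.uniform hC hw hcomp (show 0 < ε / 3 by positivity),
    Metric.tendsto_nhds.1 (hw (t + s) (y + z0)) (ε / 3) (by positivity)] with n hn hu hp
  rw [Real.dist_eq] at hp ⊢
  rw [abs_lt] at hp ⊢
  have hle := le_csSup (hbd _ hn) (mem_range_self z0)
  have hup : hlP (W n) s t y ≤ A + ε / 2 := by
    refine csSup_le (range_nonempty _) ?_
    rintro _ ⟨z, rfl⟩
    by_cases hz : ‖z‖ ≤ R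
    · have h1 := (abs_le.1 (hu (t + s, y + z) ⟨rfl, by simpa [dist_eq_norm] using hz⟩)).2
      have h2 : w (t + s) (y + z) - ‖z‖ ^ 2 / (2 * s) ≤ A :=
        hA ▸ le_csSup (hbd _ hb) (mem_range_self z)
      linarith
    · have h1 := hn z
      have h2 : K - A + 1 ≤ ‖z‖ ^ 2 / (8 * s) := by
        rw [le_div_iff₀ (by positivity)]
        have : 0 ≤ R := by rw [hR]; positivity
        nlinarith [le_abs_self (8 * s * (K - A + 1))]
      linarith
  have hz0' : A - ε / 3 < w (t + s) (y + z0) - ‖z0‖ ^ 2 / (2 * s) := hz0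
  have hle' : W n (t + s) (y + z0) - ‖z0‖ ^ 2 / (2 * s) ≤ hlP (W n) s t y := hle
  constructor <;> linarith

theorem Approx.mono_limit (h : Approx C G W) (hC : 0 ≤ C)
    (hw : ∀ t y, Tendsto (fun n => W n t y) atTop (𝓝 (w t y))) : Mono w := by
  intro t y a (ha : 0 < a) b (hb : 0 < b) hab
  exact le_of_tendsto_of_tendsto (((h.hlP_tendsto hC hw ha t y).sub (hw t y)).div_const a)
    (((h.hlP_tendsto hC hw hb t y).sub (hw t y)).div_const b) (h.mono t y a b ha hab)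

theorem Approx.window_limit (h : Approx C G W) (hC : 0 ≤ C)
    (hw : ∀ t y, Tendsto (fun n => W n t y) atTop (𝓝 (w t y))) : Window C w := by
  intro t y r hr
  obtain ⟨B, hB0, hB⟩ := h.bound (|t| + ‖y‖ + r)
  obtain ⟨V, hV⟩ : ∃ V, V = (2 * B + C * r) / r := ⟨_, rfl⟩
  have hV0 : 0 ≤ V := by rw [hV]; positivity
  obtain ⟨D, hD⟩ : ∃ D, D = (1 + V) * V + V ^ 2 + V := ⟨_, rfl⟩
  obtain ⟨N, hN⟩ := eventually_atTop.1 (hB.and (h.win t y r hr))
  choose b v hbv using fun n : ℕ => (hN (n + N) (by omega)).2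
  have hbd : ∀ n, (b n, v n) ∈ closedBall (0 : ℝ × F) D := fun n => by
    obtain ⟨h1, h2⟩ := win_slope_bound hC hr (hbv n) (hN (n + N) (by omega)).1
      (by linarith [norm_nonneg y]) (by linarith [abs_nonneg t])
    rw [← hV] at h1 h2
    rw [mem_closedBall, dist_zero_right, Prod.norm_def, Real.norm_eq_abs]
    have h3 : ‖v n‖ ^ 2 ≤ V ^ 2 := pow_le_pow_left₀ (norm_nonneg _) h1 2
    rw [abs_le] at h2
    refine max_le (abs_le.2 ⟨?_, ?_⟩) (by nlinarith) <;> nlinarith [norm_nonneg (v n)]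
  obtain ⟨⟨b', v'⟩, -, φ, hφ, hlim⟩ := (isCompact_closedBall _ _).tendsto_subseq hbd
  refine ⟨b', v', fun τ z hτ hz => ?_⟩
  have htop : Tendsto (fun n => φ n + N) atTop atTop :=
    tendsto_atTop_mono (fun n => Nat.le_add_right _ _) hφ.tendsto_atTop
  have hb' : Tendsto (fun n => b (φ n)) atTop (𝓝 b') := (continuous_fst.tendsto _).comp hlim
  have hv' : Tendsto (fun n => v (φ n)) atTop (𝓝 v') := (continuous_snd.tendsto _).comp hlim
  have l1 := (h.comp htop).tendsto_joint hC (fun t y => (hw t y).comp htop)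
    (tendsto_const_nhds (x := t + τ))
    ((tendsto_const_nhds (x := y)).add (hv'.const_smul τ) |>.add (tendsto_const_nhds (x := z)))
  have l2 : Tendsto (fun n => W (φ n + N) t y) atTop (𝓝 (w t y)) := (hw t y).comp htop
  exact le_of_tendsto (((l1.sub l2).sub
    ((hb'.add ((hv'.norm.pow 2).div_const 2)).mul_const τ)).sub
    (hv'.inner tendsto_const_nhds)).abs
    (Eventually.of_forall fun n => hbv (φ n) τ z hτ hz)

theorem Approx.barrier_limit (h : Approx C G W) (hC : 0 ≤ C)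
    (hw : ∀ t y, Tendsto (fun n => W n t y) atTop (𝓝 (w t y))) : Barrier w := by
  intro t y k T R L M c K hT hR hM hL hbd σ z hσ0 hσT hz
  refine le_of_forall_pos_le_add fun ε hε => ?_
  obtain ⟨S, hS⟩ : ∃ S : Set (ℝ × F), S = (fun p : ℝ × F => (t - p.1, y - p.1 • k + p.2)) ''
      (Icc 0 T ×ˢ closedBall 0 R) := ⟨_, rfl⟩
  have hSc : IsCompact S :=
    hS ▸ (isCompact_Icc.prod (isCompact_closedBall _ _)).image (by fun_prop)
  obtain ⟨n, hu, hbox⟩ := ((h.uniform hC hw hSc (show 0 < ε / 2 by positivity)).and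
    (h.box t y k T R L M (c + ε / 2) K hT hR hM hL)).exists
  have hmem : ∀ a x, 0 ≤ a → a ≤ T → ‖x‖ ≤ R → |back (W n) t y k a x - back w t y k a x| ≤ ε / 2 :=
    fun a x h1 h2 h3 => by
      have := hu (t - a, y - a • k + x)
        (hS ▸ ⟨(a, x), ⟨⟨h1, h2⟩, by simpa using h3⟩, rfl⟩)
      simp only [back]
      convert this using 2
      ring
  have h1 := hbox (fun a x a0 aT hx hb => by
    linarith [(abs_le.1 (hmem a x a0 aT hx)).2, hbd a x a0 aT hx hb]) σ z hσ0 hσT hz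
  linarith [(abs_le.1 (hmem σ z hσ0 hσT hz)).1]

/-- Compactness: a subsequence converges locally uniformly to a profile. -/
theorem exists_prof_limit (hC : 0 ≤ C) (h : Approx C G W) :
    ∃ (φ : ℕ → ℕ) (w : ℝ → F → ℝ), StrictMono φ ∧ Prof C w ∧
      (∀ t y, Tendsto (fun n => W (φ n) t y) atTop (𝓝 (w t y))) ∧
      ∀ S ε : ℝ, 0 < ε → ∀ᶠ n in atTop, ∀ t y, |t| ≤ S → ‖y‖ ≤ S →
        |W (φ n) t y - w t y| ≤ ε := by
  obtain ⟨φ, hφ, hd⟩ := h.exists_subseq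
  have h' := h.comp hφ.tendsto_atTop
  obtain ⟨w, hw⟩ := h'.exists_limit hC hd
  have hm : ∀ t y, Tendsto (fun n => C1.mir (W (φ n)) t y) atTop (𝓝 (C1.mir w t y)) :=
    fun t y => (hw (-t) y).neg
  refine ⟨φ, w, hφ, ⟨h'.mono_limit hC hw, h'.mir.mono_limit hC hm, h'.window_limit hC hw,
    h'.barrier_limit hC hw, h'.mir.barrier_limit hC hm⟩, hw, fun S ε hε => ?_⟩
  filter_upwards [h'.uniform hC hw
    ((isCompact_Icc (a := -S) (b := S)).prod (isCompact_closedBall (0 : F) S)) hε] with n hn t y ht hy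
  exact hn (t, y) ⟨⟨(abs_le.1 ht).1, (abs_le.1 ht).2⟩, by simpa using hy⟩

end Vale.Agent.P080.C1.Zoom
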