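import Vale.Agent.P080.C1.Loc.Defs
import Vale.Agent.P080.C1.Zoom.Chain
import Vale.Agent.P080.C1.Zoom.Compact

/-!
B6a: the zoom of a member of `K1` at a small scale, in the frame of its window.
-/

namespace Vale.Agent.P080.C1.Zoom

open Set Filter Topology Metric
open scoped RealInnerProductSpace

variable {F : Type*} [NormedAddCommGroup F] [InnerProductSpace ℝ F]
variable {w : ℝ → F → ℝ} {C θ b : ℝ} {v : F}

/-- The zoom by `θ` in the frame of velocity `v` and slope `b`. -/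
noncomputable def zm (w : ℝ → F → ℝ) (θ b : ℝ) (v : F) : ℝ → F → ℝ := fun t y =>
  w (θ * t) (θ • (y + t • v)) / θ - (⟪v, y⟫ + (‖v‖ ^ 2 / 2 + b) * t)

theorem mir_zm : mir (zm w θ b v) = zm (mir w) θ b (-v) := by
  funext t y
  simp only [mir, zm, norm_neg, inner_neg_left, smul_neg, neg_smul, mul_neg]
  ring

theorem zm_zero (h0 : w 0 0 = 0) : zm w θ b v 0 0 = 0 := by simp [zm, h0]

theorem isWin_zm (hθ : 0 < θ) {t r b' : ℝ} {y v' : F}
    (h : IsWin C w (θ * t) (θ • (y + t • v)) (θ * r) b' v') :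
    IsWin C (zm w θ b v) t y r (b' - b) (v' - v) := by
  intro τ z hτ hz
  have h1 := h (θ * τ) (θ • z)
    (by rw [abs_mul, abs_of_pos hθ]; exact mul_le_mul_of_nonneg_left hτ hθ.le)
    (by rw [norm_smul, Real.norm_eq_abs, abs_of_pos hθ]; exact mul_le_mul_of_nonneg_left hz hθ.le)
  rw [real_inner_smul_right, ← mul_add] at h1
  have e : θ • (y + τ • (v' - v) + z + (t + τ) • v) =
      θ • (y + t • v) + (θ * τ) • v' + θ • z := by module
  have e2 : ‖v' - v‖ ^ 2 = ‖v'‖ ^ 2 - 2 * ⟪v', v⟫ + ‖v‖ ^ 2 := norm_sub_sq_real v' v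
  simp only [zm]
  rw [e, inner_add_right, inner_add_right, real_inner_smul_right, inner_sub_right,
    inner_sub_left v' v z, real_inner_self_eq_norm_sq]
  have e3 : ⟪v', v⟫ = ⟪v, v'⟫ := real_inner_comm _ _
  rw [e3] at e2
  have aux : ∀ a : ℝ, θ * |a| = |θ * a| := fun a => by rw [abs_mul, abs_of_pos hθ]
  refine le_of_mul_le_mul_left ((le_of_eq ?_).trans (h1.trans_eq (by ring))) hθ
  rw [aux, e2]
  congr 1
  field_simp
  ring

omit [InnerProductSpace ℝ F] in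
theorem bddAbove_of_growth {s h : ℝ} {x : F} (hg : ∀ y, |w s y| ≤ C * (1 + ‖y‖) ^ 2)
    (hh : 0 < h) (hC : C * h ≤ 1 / 4) :
    BddAbove (range fun z => w s (x + z) - ‖z‖ ^ 2 / (2 * h)) := by
  refine ⟨2 * C * (1 + ‖x‖) ^ 2, ?_⟩
  rintro _ ⟨z, rfl⟩
  have hC0 : 0 ≤ C := by
    have h0 := (abs_nonneg _).trans (hg 0)
    simpa using h0
  have h1 := (abs_le.1 (hg (x + z))).2
  have h2 : (1 + ‖x + z‖) ^ 2 ≤ 2 * (1 + ‖x‖) ^ 2 + 2 * ‖z‖ ^ 2 := by
    have := norm_add_le x z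
    nlinarith [sq_nonneg (1 + ‖x‖ - ‖z‖), norm_nonneg (x + z), norm_nonneg z]
  have h3 : 2 * C * ‖z‖ ^ 2 ≤ ‖z‖ ^ 2 / (2 * h) := by
    rw [le_div_iff₀ (by positivity)]
    nlinarith [mul_le_mul_of_nonneg_right hC (sq_nonneg ‖z‖)]
  nlinarith [mul_le_mul_of_nonneg_left h2 hC0]

theorem Sp_zm (hθ : 0 < θ) {t h : ℝ} {y : F} (hh : 0 < h)
    (hbd : BddAbove (range fun z =>
      w (θ * t + θ * h) (θ • (y + t • v) + z) - ‖z‖ ^ 2 / (2 * (θ * h)))) :
    Sp (zm w θ b v) h t y = Sp w (θ * h) (θ * t) (θ • (y + t • v)) - b := by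
  obtain ⟨A, hA⟩ : ∃ A, A = ⟪v, y⟫ + (‖v‖ ^ 2 / 2 + b) * t := ⟨_, rfl⟩
  have e : hlP (zm w θ b v) h t y =
      hlP w (θ * h) (θ * t) (θ • (y + t • v)) / θ - (A + b * h) := by
    have key : ∀ z : F, zm w θ b v (t + h) (y + z) - ‖z‖ ^ 2 / (2 * h) =
        (w (θ * t + θ * h) (θ • (y + t • v) + θ • (z + h • v)) -
          ‖θ • (z + h • v)‖ ^ 2 / (2 * (θ * h))) / θ - (A + b * h) := by
      intro z
      have e1 : θ • (y + z + (t + h) • v) = θ • (y + t • v) + θ • (z + h • v) := by module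
      have e2 : ‖θ • (z + h • v)‖ ^ 2 = θ ^ 2 * (‖z‖ ^ 2 + 2 * h * ⟪v, z⟫ + h ^ 2 * ‖v‖ ^ 2) := by
        rw [norm_smul, mul_pow, Real.norm_eq_abs, sq_abs, norm_add_sq_real, real_inner_smul_right,
          norm_smul, mul_pow, Real.norm_eq_abs, sq_abs, real_inner_comm v z]
        ring
      simp only [zm]
      rw [e1, e2, ← mul_add, hA, inner_add_right]
      field_simp
      ring
    refine csSup_eq_of_forall_le_of_forall_lt_exists_gt (range_nonempty _) ?_ ?_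
    · rintro _ ⟨z, rfl⟩
      simp only [key]
      exact sub_le_sub_right (div_le_div_of_nonneg_right
        (le_csSup hbd (mem_range_self _)) hθ.le) _
    · intro a ha
      obtain ⟨_, ⟨x, rfl⟩, hx⟩ := exists_lt_of_lt_csSup (range_nonempty _)
        (show θ * (a + (A + b * h)) < hlP w (θ * h) (θ * t) (θ • (y + t • v)) by
          have := (lt_sub_iff_add_lt.1 ha)
          rw [lt_div_iff₀ hθ] at this
          linarith)
      refine ⟨_, ⟨θ⁻¹ • x - h • v, rfl⟩, ?_⟩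
      have e3 : θ • (θ⁻¹ • x - h • v + h • v) = x := by
        rw [sub_add_cancel, smul_inv_smul₀ hθ.ne']
      simp only [key, e3]
      rw [lt_sub_iff_add_lt, lt_div_iff₀ hθ]
      linarith
  simp only [Sp, e, zm, ← hA]
  field_simp
  ring

theorem back_zm (hθ : 0 < θ) (t : ℝ) (y k : F) (σ : ℝ) (z : F) :
    back (zm w θ b v) t y k σ z =
      back w (θ * t) (θ • (y + t • v)) (k + v) (θ * σ) (θ • z) / θ + b * σ -
        (⟪v, y⟫ + (‖v‖ ^ 2 / 2 + b) * t) := by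
  have e : θ • (y - σ • k + z + (t - σ) • v) =
      θ • (y + t • v) - (θ * σ) • (k + v) + θ • z := by module
  simp only [back, zm]
  rw [e, ← mul_sub, norm_add_sq_real, inner_add_right, inner_sub_right, real_inner_smul_right,
    real_inner_smul_right, inner_add_left, real_inner_comm k v]
  field_simp
  ring

theorem boxCmp_zm {T₀ : ℝ} (hw : LocBarrier T₀ w) (hθ : 0 < θ) {t T R L M c K : ℝ} {y k : F}
    (hT : 0 < T) (hR : 0 < R) (hM : 0 ≤ M) (hL : 4 * M ^ 3 * R ^ 2 < L)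
    (h1 : -T₀ < θ * (t - T)) (h2 : θ * t < T₀) :
    BoxCmp (zm w θ b v) t y k T R L M c K := by
  intro hbd σ z hσ0 hσT hz
  obtain ⟨A, hA⟩ : ∃ A, A = ⟪v, y⟫ + (‖v‖ ^ 2 / 2 + b) * t := ⟨_, rfl⟩
  have key : ∀ (a : ℝ) (x : F), back (zm w θ b v) t y k a x ≤ c + K * a - L * a ^ 2 + M * ‖x‖ ^ 2 ↔
      back w (θ * t) (θ • (y + t • v)) (k + v) (θ * a) (θ • x) ≤
        θ * (c + A) + (K - b) * (θ * a) - L / θ * (θ * a) ^ 2 + M / θ * ‖θ • x‖ ^ 2 := by
    intro a x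
    have e : θ * (c + A) + (K - b) * (θ * a) - L / θ * (θ * a) ^ 2 + M / θ * ‖θ • x‖ ^ 2 =
        (c + A + (K - b) * a - L * a ^ 2 + M * ‖x‖ ^ 2) * θ := by
      rw [norm_smul, Real.norm_eq_abs, abs_of_pos hθ]; field_simp
    rw [back_zm hθ, ← hA, e, ← div_le_iff₀ hθ]
    constructor <;> intro h <;> linarith
  refine (key σ z).2 (hw (θ * t) (θ • (y + t • v)) (k + v) (θ * T) (θ * R) (L / θ) (M / θ)
    (θ * (c + A)) (K - b) (by positivity) (by positivity) (by positivity) ?_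
    (by rw [← mul_sub]; exact h1) h2 ?_ _ _ (by positivity)
    (mul_le_mul_of_nonneg_left hσT hθ.le) ?_)
  · rw [show 4 * (M / θ) ^ 3 * (θ * R) ^ 2 = (4 * M ^ 3 * R ^ 2) / θ by field_simp]
    exact (div_lt_div_iff_of_pos_right hθ).2 hL
  · intro σ' z' a0 aT hz' hb
    obtain ⟨a, rfl⟩ : ∃ a, σ' = θ * a := ⟨σ' / θ, by field_simp⟩
    obtain ⟨x, rfl⟩ : ∃ x, z' = θ • x := ⟨θ⁻¹ • z', (smul_inv_smul₀ hθ.ne' z').symm⟩
    rw [norm_smul, Real.norm_eq_abs, abs_of_pos hθ] at hz' hb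
    refine (key _ _).1 (hbd _ _ (nonneg_of_mul_nonneg_right a0 hθ)
      (le_of_mul_le_mul_left aT hθ) (le_of_mul_le_mul_left hz' hθ) ?_)
    rcases hb with hb | hb | hb
    · exact Or.inl ((mul_eq_zero.1 hb).resolve_left hθ.ne')
    · exact Or.inr (Or.inl (mul_left_cancel₀ hθ.ne' hb))
    · exact Or.inr (Or.inr (mul_left_cancel₀ hθ.ne' hb))
  · rw [norm_smul, Real.norm_eq_abs, abs_of_pos hθ]
    exact mul_le_mul_of_nonneg_left hz hθ.le

end Vale.Agent.P080.C1.Zoom
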